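import Vale.Agent.Lib.P047F.IA.Combine

/-!
# P047F IA/Main: `partIA_a`, `partIA_b`
-/

open Finset

namespace P047F

theorem IAMain_dz_of_small {t : ℝ} (h : |t| < 1 / 2) : dz t = |t| := by
  have h1 := abs_lt.1 h
  have h2 : round t = 0 := by
    rw [round_eq_zero_iff]
    constructor
    · linarith [h1.1]
    · linarith [h1.2]
  unfold dz
  rw [h2]
  simp

/-- doubling argument: `|v| ≤ 1/4`, `dz (2^i v) ≤ ρ` for all `i ≤ s`, `ρ = 1/4096` ⇒ `|v| ≤ ρ/2^s` -/
theorem doubling {v : ℝ} (s : ℕ) (hv : |v| ≤ 1 / 4)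
    (h : ∀ i ≤ s, dz (2 ^ i * v) ≤ 1 / 4096) : |v| ≤ (1 / 2) ^ s / 4096 := by
  have key : ∀ i, i ≤ s → |2 ^ i * v| ≤ 1 / 4096 := by
    intro i
    induction i with
    | zero =>
      intro hi
      have h1 := h 0 hi
      rw [pow_zero, one_mul] at h1 ⊢
      rwa [IAMain_dz_of_small (by linarith)] at h1
    | succ i ih =>
      intro hi
      have h1 := ih (by omega)
      have h2 : |2 ^ (i + 1) * v| ≤ 2 / 4096 := by
        have h3 : (2 : ℝ) ^ (i + 1) * v = 2 * (2 ^ i * v) := by ring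
        rw [h3, abs_mul, abs_of_pos (by norm_num : (0 : ℝ) < 2)]
        linarith
      have h3 := h (i + 1) hi
      rwa [IAMain_dz_of_small (by linarith)] at h3
  have h1 := key s le_rfl
  rw [abs_mul, abs_of_pos (by positivity : (0 : ℝ) < 2 ^ s)] at h1
  have h2 : (1 / 2 : ℝ) ^ s / 4096 = (1 / 4096) / 2 ^ s := by
    rw [one_div, inv_pow]
    field_simp
  rw [h2, le_div_iff₀ (by positivity)]
  linarith

theorem dz_sub_int (t : ℝ) (k : ℤ) : dz (t - k) = dz t := by
  unfold dz
  rw [round_sub_intCast]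
  congr 1
  push_cast
  ring

theorem dz_add_le (s t : ℝ) : dz (s + t) ≤ dz s + dz t := by
  unfold dz
  refine (round_le (s + t) (round s + round t)).trans ?_
  have h1 : s + t - ((round s + round t : ℤ) : ℝ) = (s - round s) + (t - round t) := by
    push_cast
    ring
  rw [h1]
  exact abs_add_le _ _

theorem dz_le_abs (t : ℝ) : dz t ≤ |t| := by
  unfold dz
  have h := round_le t 0
  simpa using h

theorem IAMain_dz_neg (t : ℝ) : dz (-t) ≤ dz t := by
  unfold dz
  refine (round_le (-t) (-(round t))).trans (le_of_eq ?_)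
  rw [← abs_neg]
  congr 1
  push_cast
  ring

theorem IAMain_dz_nonneg (t : ℝ) : 0 ≤ dz t := abs_nonneg _

theorem IAMain_dz_sub_sq (s t : ℝ) : dz (s - t) ^ 2 ≤ 2 * dz s ^ 2 + 2 * dz t ^ 2 := by
  have h1 : dz (s - t) ≤ dz s + dz t := by
    rw [sub_eq_add_neg]
    exact (dz_add_le s (-t)).trans (add_le_add le_rfl (IAMain_dz_neg t))
  have h2 : dz (s - t) ^ 2 ≤ (dz s + dz t) ^ 2 := pow_le_pow_left₀ (IAMain_dz_nonneg _) h1 2
  nlinarith [sq_nonneg (dz s - dz t)]

section

variable {ι : Type} [Fintype ι] [DecidableEq ι]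

theorem IAMain_degLe_sub {m : ℕ} {f g : (ι → Bool) → ℝ} (hf : DegLe m f) (hg : DegLe m g) :
    DegLe m (fun x => f x - g x) := by
  intro T hT
  have h1 := hf T hT
  have h2 := hg T hT
  have h3 : ∑ x, (f x - g x) * (chi T x : ℝ) =
      ∑ x, f x * (chi T x : ℝ) - ∑ x, g x * (chi T x : ℝ) := by
    rw [← Finset.sum_sub_distrib]
    exact Finset.sum_congr rfl fun x _ => by ring
  rw [h3, h1, h2, sub_zero]

theorem IAMain_eqv_refl (m : ℕ) (w : (ι → Bool) → ℤ) : Eqv m w w := by
  intro T _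
  simp

theorem IAMain_count {α : Type} {m : ℕ} {ρ F M : ℝ} (hcnt : Cnt ι m ρ F) (hM : 1 ≤ M)
    (P' : Finset α) (f : α → ((ι → Bool) → ℤ)) (hf1 : ∀ a ∈ P', f a ∈ WS ι m ρ (4 * M))
    (hf2 : ∀ a ∈ P', ∀ b ∈ P', Eqv m (f a) (f b) → a = b) :
    (P'.card : ℝ) ≤ Real.exp (4 * M * F) := by
  classical
  have hinj : Set.InjOn f P' := fun a ha b hb hab =>
    hf2 a ha b hb (by rw [hab]; exact IAMain_eqv_refl m (f b))
  have h1 := hcnt (4 * M) (by linarith) (P'.image f)
    (by
      intro w hw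
      obtain ⟨a, ha, rfl⟩ := Finset.mem_image.1 hw
      exact hf1 a ha)
    (by
      intro w hw w' hw' hE
      obtain ⟨a, ha, rfl⟩ := Finset.mem_image.1 hw
      obtain ⟨b, hb, rfl⟩ := Finset.mem_image.1 hw'
      rw [hf2 a ha b hb hE])
  rw [Finset.card_image_of_injOn hinj] at h1
  have h2 : F * (4 * M) = 4 * M * F := by ring
  rwa [h2] at h1

/-- the relation used for the separated sets -/
def IAMain_rel (m : ℕ) (θ θ' : (ι → Bool) → ℝ) : Prop :=
  ∃ w : (ι → Bool) → ℤ, DegLe m (fun x => (w x : ℝ)) ∧ ∀ x, |θ x - θ' x - (w x : ℝ)| ≤ 1 / 2048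

theorem IAMain_card {m : ℕ} {F M : ℝ} (hM : 1 ≤ M) (hF : 0 ≤ F) (hι : 8 ≤ Fintype.card ι)
    (hcnt : Cnt ι m (1 / 4096) F) (P : Finset ((ι → Bool) → ℝ))
    (hP : ∀ θ ∈ P, DegLe m θ ∧ ∑ x, dz (θ x) ^ 2 ≤ M)
    (hsep : ∀ θ ∈ P, ∀ θ' ∈ P, IAMain_rel m θ θ' → θ = θ') :
    (P.card : ℝ) ≤ Real.exp ((2 ^ 41 * (Fintype.card ι : ℝ) ^ 2 *
      GG (Fintype.card ι) m + 8 * F) * M) := by
  have h0 := combine m 0 hM hF hι (Nat.zero_le _) P hP ?_
  · rw [pow_zero, mul_one] at h0
    exact h0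
  · intro P' hP' hcl
    rcases P'.eq_empty_or_nonempty with rfl | ⟨θ₁, hθ₁⟩
    · simp only [Finset.card_empty, Nat.cast_zero]
      exact (Real.exp_pos _).le
    · have hcl' : ∀ θ ∈ P', ∀ θ' ∈ P', ∀ x, dz (θ x - θ' x) ≤ 1 / 4096 := by
        intro θ hθ θ' hθ' x
        have := hcl θ hθ θ' hθ' 0 le_rfl x
        rwa [pow_zero, one_mul] at this
      refine IAMain_count hcnt hM P' (fun θ x => round (θ x - θ₁ x)) ?_ ?_
      · intro θ hθ
        refine ⟨fun x => θ x - θ₁ x - round (θ x - θ₁ x), ?_, fun x => hcl' θ hθ θ₁ hθ₁ x, ?_⟩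
        · have h1 := IAMain_degLe_sub (hP θ (hP' hθ)).1 (hP θ₁ (hP' hθ₁)).1
          have h2 : (fun x => θ x - θ₁ x - (round (θ x - θ₁ x) : ℝ) + ((round (θ x - θ₁ x) : ℤ) : ℝ)) =
              fun x => θ x - θ₁ x := by
            funext x
            ring
          rw [h2]
          exact h1
        · calc ∑ x, (θ x - θ₁ x - (round (θ x - θ₁ x) : ℝ)) ^ 2
              = ∑ x, dz (θ x - θ₁ x) ^ 2 := by
                refine Finset.sum_congr rfl fun x _ => ?_
                unfold dz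
                rw [sq_abs]
            _ ≤ ∑ x, (2 * dz (θ x) ^ 2 + 2 * dz (θ₁ x) ^ 2) :=
                Finset.sum_le_sum fun x _ => IAMain_dz_sub_sq _ _
            _ = 2 * ∑ x, dz (θ x) ^ 2 + 2 * ∑ x, dz (θ₁ x) ^ 2 := by
                rw [Finset.sum_add_distrib, Finset.mul_sum, Finset.mul_sum]
            _ ≤ 4 * M := by
                have h1 := (hP θ (hP' hθ)).2
                have h2 := (hP θ₁ (hP' hθ₁)).2
                linarith
      · intro θ hθ θ' hθ' hE
        refine hsep θ (hP' hθ) θ' (hP' hθ') ⟨fun x => round (θ x - θ₁ x) - round (θ' x - θ₁ x),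
          ?_, fun x => ?_⟩
        · have h2 : (fun x => (((round (θ x - θ₁ x) - round (θ' x - θ₁ x) : ℤ)) : ℝ)) =
              fun x => ((round (θ x - θ₁ x) : ℤ) : ℝ) - ((round (θ' x - θ₁ x) : ℤ) : ℝ) := by
            funext x
            push_cast
            ring
          rw [h2]
          exact hE
        · have h1 := hcl' θ hθ θ₁ hθ₁ x
          have h2 := hcl' θ' hθ' θ₁ hθ₁ x
          unfold dz at h1 h2
          have h3 : θ x - θ' x - ((round (θ x - θ₁ x) - round (θ' x - θ₁ x) : ℤ) : ℝ) =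
              (θ x - θ₁ x - round (θ x - θ₁ x)) - (θ' x - θ₁ x - round (θ' x - θ₁ x)) := by
            push_cast
            ring
          rw [h3]
          refine (abs_sub _ _).trans ?_
          linarith

end

/-- maximal separated set (sizes are bounded by `combine` with `s = 0`; for `P' ⊆ P` with
`dz(θ - θ') ≤ 1/4096` on all pairs, fix `θ₁`, `w_θ = round (θ - θ₁) ∈ WS m (1/4096) (4M)` are pairwise
inequivalent) -/
theorem partIA_a : PartIA_a := by
  classical
  refine ⟨2 ^ 41, by norm_num, ?_⟩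
  intro ι _ _ m F hι _ hF hcnt M hM
  -- cardinalities of separated sets
  let S : Set ℕ := {k | ∃ P : Finset ((ι → Bool) → ℝ), P.card = k ∧
    (∀ θ ∈ P, DegLe m θ ∧ ∑ x, dz (θ x) ^ 2 ≤ M) ∧
    ∀ θ ∈ P, ∀ θ' ∈ P, IAMain_rel m θ θ' → θ = θ'}
  obtain ⟨B, hB⟩ := exists_nat_gt (Real.exp ((2 ^ 41 * (Fintype.card ι : ℝ) ^ 2 *
      GG (Fintype.card ι) m + 8 * F) * M))
  have hbd : BddAbove S := by
    refine ⟨B, ?_⟩
    rintro k ⟨P, rfl, h1, h2⟩
    have h3 := IAMain_card hM hF hι hcnt P h1 h2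
    exact_mod_cast h3.trans hB.le
  have hne : S.Nonempty := ⟨0, ∅, rfl, by simp, by simp⟩
  obtain ⟨P, hPc, hP1, hP2⟩ := Nat.sSup_mem hne hbd
  refine ⟨P, IAMain_card hM hF hι hcnt P hP1 hP2, fun θ hθ => (hP1 θ hθ).1, fun θ hθ hE => ?_⟩
  by_contra hcon
  push Not at hcon
  have hnot : ∀ θ' ∈ P, ¬ IAMain_rel m θ θ' := by
    rintro θ' hθ' ⟨w, hw1, hw2⟩
    obtain ⟨x, hx⟩ := hcon θ' hθ' w hw1
    exact absurd (hw2 x) (not_le.2 hx)
  have hnot' : ∀ θ' ∈ P, ¬ IAMain_rel m θ' θ := by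
    rintro θ' hθ' ⟨w, hw1, hw2⟩
    refine hnot θ' hθ' ⟨fun x => -w x, ?_, fun x => ?_⟩
    · have h1 := IAMain_degLe_sub (f := fun _ => 0) (by intro T _; simp) hw1
      have h2 : (fun x => (((-w x : ℤ)) : ℝ)) = fun x => 0 - (w x : ℝ) := by
        funext x
        push_cast
        ring
      rw [h2]
      exact h1
    · have h1 := hw2 x
      rw [← abs_neg] at h1
      have h2 : θ x - θ' x - ((-w x : ℤ) : ℝ) = -(θ' x - θ x - (w x : ℝ)) := by
        push_cast
        ring
      rwa [h2]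
  have hθP : θ ∉ P := by
    intro h
    refine hnot θ h ⟨fun _ => 0, ?_, fun x => ?_⟩
    · intro T _
      simp
    · simp
  have hmem : (insert θ P).card ∈ S := by
    refine ⟨insert θ P, rfl, ?_, ?_⟩
    · intro a ha
      rcases Finset.mem_insert.1 ha with rfl | ha
      · exact ⟨hθ, hE⟩
      · exact hP1 a ha
    · intro a ha b hb hab
      rcases Finset.mem_insert.1 ha with ha | ha <;> rcases Finset.mem_insert.1 hb with hb | hb
      · rw [ha, hb]
      · rw [ha] at hab
        exact absurd hab (hnot b hb)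
      · rw [hb] at hab
        exact absurd hab (hnot' a ha)
      · exact hP2 a ha b hb hab
  have h1 := le_csSup hbd hmem
  rw [Finset.card_insert_of_notMem hθP, ← hPc] at h1
  omega

/-- `θ_w = u_w + w`; `combine`; for `P'` with all pairs close at scales `≤ s`: fix `w₁`, then
`|u_w - u_{w₁}| ≤ 2^{-s}/4096` by `doubling`, energy `≤ 4M`, and `Cnt` applies to `w - w₁` -/
theorem partIA_b : PartIA_b := by
  classical
  refine ⟨2 ^ 41, by norm_num, ?_⟩
  intro ι _ _ m s F hι _ hs hF hcnt M hM P hPW hPE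
  choose! u hu1 hu2 hu3 using hPW
  have hinj : Set.InjOn (fun (w : (ι → Bool) → ℤ) x => u w x + (w x : ℝ)) P := by
    intro w hw w' hw' he
    funext x
    have h1 : u w x + (w x : ℝ) = u w' x + (w' x : ℝ) := congrFun he x
    have h2 := abs_le.1 (hu2 w hw x)
    have h3 := abs_le.1 (hu2 w' hw' x)
    have h4 : |((w x - w' x : ℤ) : ℝ)| < 1 := by
      rw [abs_lt]
      push_cast
      constructor <;> linarith [h2.1, h2.2, h3.1, h3.2]
    have h5 : |w x - w' x| < 1 := by exact_mod_cast h4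
    have h6 := Int.abs_lt_one_iff.1 h5
    omega
  have hcard : (P.image (fun (w : (ι → Bool) → ℤ) x => u w x + (w x : ℝ))).card = P.card :=
    Finset.card_image_of_injOn hinj
  have h0 := combine m s hM hF hι hs (P.image (fun (w : (ι → Bool) → ℤ) x => u w x + (w x : ℝ)))
    ?_ ?_
  · rw [hcard] at h0
    exact h0
  · intro θ hθ
    obtain ⟨w, hw, rfl⟩ := Finset.mem_image.1 hθ
    refine ⟨hu1 w hw, ?_⟩
    refine le_trans (Finset.sum_le_sum fun x _ => ?_) (hu3 w hw)
    have h1 : dz (u w x + (w x : ℝ)) = dz (u w x) := by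
      rw [← dz_sub_int (u w x + (w x : ℝ)) (w x)]
      congr 1
      ring
    rw [h1, ← sq_abs (u w x)]
    exact pow_le_pow_left₀ (IAMain_dz_nonneg _) (dz_le_abs _) 2
  · intro P' hP' hcl
    -- pull back to integer functions
    set P2 : Finset ((ι → Bool) → ℤ) := P.filter
      (fun w => (fun x => u w x + (w x : ℝ)) ∈ P') with hP2
    have hP'im : P' = P2.image (fun (w : (ι → Bool) → ℤ) x => u w x + (w x : ℝ)) := by
      ext θ
      constructor
      · intro hθ
        obtain ⟨w, hw, rfl⟩ := Finset.mem_image.1 (hP' hθ)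
        exact Finset.mem_image.2 ⟨w, Finset.mem_filter.2 ⟨hw, hθ⟩, rfl⟩
      · intro hθ
        obtain ⟨w, hw, rfl⟩ := Finset.mem_image.1 hθ
        exact (Finset.mem_filter.1 hw).2
    have hcard2 : P'.card ≤ P2.card := by
      rw [hP'im]
      exact Finset.card_image_le
    have hcard2' : (P'.card : ℝ) ≤ P2.card := by exact_mod_cast hcard2
    refine hcard2'.trans ?_
    rcases P2.eq_empty_or_nonempty with h2 | ⟨w₁, hw₁⟩
    · rw [h2]
      simp only [Finset.card_empty, Nat.cast_zero]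
      exact (Real.exp_pos _).le
    · have hw₁P := (Finset.mem_filter.1 hw₁).1
      refine IAMain_count hcnt hM P2 (fun w x => w x - w₁ x) ?_ ?_
      · intro w hw
        have hwP := (Finset.mem_filter.1 hw).1
        refine ⟨fun x => u w x - u w₁ x, ?_, fun x => ?_, ?_⟩
        · have h1 := IAMain_degLe_sub (hu1 w hwP) (hu1 w₁ hw₁P)
          have h2 : (fun x => u w x - u w₁ x + ((w x - w₁ x : ℤ) : ℝ)) =
              fun x => (u w x + (w x : ℝ)) - (u w₁ x + (w₁ x : ℝ)) := by
            funext x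
            push_cast
            ring
          rw [h2]
          exact h1
        · refine doubling s ?_ fun i hi => ?_
          · refine (abs_sub _ _).trans ?_
            have h1 := hu2 w hwP x
            have h2 := hu2 w₁ hw₁P x
            linarith
          · have h1 := hcl _ (Finset.mem_filter.1 hw).2 _ (Finset.mem_filter.1 hw₁).2 i hi x
            have h2 : (2 : ℝ) ^ i * (u w x - u w₁ x) =
                2 ^ i * (u w x + (w x : ℝ) - (u w₁ x + (w₁ x : ℝ))) -
                  ((2 ^ i * (w x - w₁ x) : ℤ) : ℝ) := by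
              push_cast
              ring
            rw [h2, dz_sub_int]
            exact h1
        · calc ∑ x, (u w x - u w₁ x) ^ 2 ≤ ∑ x, (2 * u w x ^ 2 + 2 * u w₁ x ^ 2) :=
                Finset.sum_le_sum fun x _ => by nlinarith [sq_nonneg (u w x + u w₁ x)]
            _ = 2 * ∑ x, u w x ^ 2 + 2 * ∑ x, u w₁ x ^ 2 := by
                rw [Finset.sum_add_distrib, Finset.mul_sum, Finset.mul_sum]
            _ ≤ 4 * M := by
                have h1 := hu3 w hwP
                have h2 := hu3 w₁ hw₁P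
                linarith
      · intro w hw w' hw' hE
        refine hPE w (Finset.mem_filter.1 hw).1 w' (Finset.mem_filter.1 hw').1 ?_
        have h2 : (fun x => (((w x - w₁ x : ℤ)) : ℝ) - ((w' x - w₁ x : ℤ) : ℝ)) =
            fun x => (w x : ℝ) - (w' x : ℝ) := by
          funext x
          push_cast
          ring
        unfold Eqv at hE ⊢
        rw [h2] at hE
        exact hE

end P047F
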