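import Vale.Agent.Lib.P047F.IA.Single

/-!
# P047F IA/Combine: combination of the scales `0..s`
-/

open Finset

namespace P047F

variable {ι : Type} [Fintype ι] [DecidableEq ι]

private theorem Combine_pow {n : ℕ} (hn : 8 ≤ n) : (8 : ℝ) * (n + 1) ≤ 2 ^ n := by
  induction n, hn using Nat.le_induction with
  | base => norm_num
  | succ k hk ih =>
    rw [pow_succ]
    push_cast
    have : (8 : ℝ) ≤ k := by exact_mod_cast hk
    linarith

/-- all scales: records of total length `≤ Σ_{i ≤ s} XX`, and the union of the bad sets has at most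
half of the elements (`(s+1)·4/2^n ≤ 1/2` as `s ≤ n`, `n ≥ 8`), and is empty if `P` has at most two
elements (`8(s+1) < 2^n`... use `|B_i| ≤ 4·2/2^n < 1`) -/
theorem all_scales (m s : ℕ) {M : ℝ} (hM : 1 ≤ M) (hι : 8 ≤ Fintype.card ι)
    (hs : s ≤ Fintype.card ι)
    (P : Finset ((ι → Bool) → ℝ)) (hP : ∀ θ ∈ P, DegLe m θ ∧ ∑ x, dz (θ x) ^ 2 ≤ M) :
    ∃ (d : ℕ) (rec : ((ι → Bool) → ℝ) → (Fin d → Fin (KK (Fintype.card ι))))
      (B : Finset ((ι → Bool) → ℝ)), B ⊆ P ∧
      (d : ℝ) ≤ ∑ i ∈ Finset.range (s + 1), XX (Fintype.card ι) m i M ∧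
      2 * (B.card : ℝ) ≤ P.card ∧ (P.card ≤ 2 → B = ∅) ∧
      ∀ θ ∈ P, θ ∉ B → ∀ θ' ∈ P, θ' ∉ B → rec θ = rec θ' →
        ∀ i ≤ s, ∀ x, dz (2 ^ i * (θ x - θ' x)) ≤ 1 / 4096 := by
  classical
  have hex := fun i : ℕ => single_scale m i hM hι P hP
  choose d rec B hBP hd hBc hrec using hex
  have h2n : (8 : ℝ) * (Fintype.card ι + 1) ≤ 2 ^ Fintype.card ι := Combine_pow hι
  have h256 : (256 : ℝ) ≤ 2 ^ Fintype.card ι := by
    have h1 : (2 : ℝ) ^ 8 ≤ 2 ^ Fintype.card ι := pow_le_pow_right₀ (by norm_num) hι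
    norm_num at h1
    exact h1
  refine ⟨∑ i : Fin (s + 1), d i, fun θ k => rec (finSigmaFinEquiv.symm k).1 θ
    (finSigmaFinEquiv.symm k).2, (Finset.range (s + 1)).biUnion B, ?_, ?_, ?_, ?_, ?_⟩
  · exact Finset.biUnion_subset.2 fun i _ => hBP i
  · rw [← Finset.sum_range (fun i => d i)]
    push_cast
    exact Finset.sum_le_sum fun i _ => hd i
  · have h1 : (((Finset.range (s + 1)).biUnion B).card : ℝ) ≤
        ∑ i ∈ Finset.range (s + 1), ((B i).card : ℝ) := by
      exact_mod_cast Finset.card_biUnion_le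
    have h2 : (∑ i ∈ Finset.range (s + 1), ((B i).card : ℝ)) * 2 ^ Fintype.card ι ≤
        (s + 1) * (4 * P.card) := by
      rw [Finset.sum_mul]
      calc ∑ i ∈ Finset.range (s + 1), ((B i).card : ℝ) * 2 ^ Fintype.card ι
          ≤ ∑ i ∈ Finset.range (s + 1), 4 * (P.card : ℝ) :=
            Finset.sum_le_sum fun i _ => hBc i
        _ = _ := by
            rw [Finset.sum_const, Finset.card_range, nsmul_eq_mul]
            push_cast
            ring
    have h3 : (s : ℝ) ≤ Fintype.card ι := by exact_mod_cast hs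
    have h4 : (0 : ℝ) ≤ P.card := Nat.cast_nonneg _
    have h5 : (0 : ℝ) < 2 ^ Fintype.card ι := by positivity
    have h6 : ((s : ℝ) + 1) * (4 * P.card) * 2 ≤ P.card * 2 ^ Fintype.card ι := by
      have : ((s : ℝ) + 1) * 8 ≤ 2 ^ Fintype.card ι := by linarith
      nlinarith
    have h7 : 2 * (((Finset.range (s + 1)).biUnion B).card : ℝ) * 2 ^ Fintype.card ι ≤
        P.card * 2 ^ Fintype.card ι := by
      have := mul_le_mul_of_nonneg_right h1 h5.le
      linarith
    exact le_of_mul_le_mul_right h7 h5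
  · intro hP2
    rw [← Finset.card_eq_zero]
    have h1 : ((Finset.range (s + 1)).biUnion B).card ≤ ∑ i ∈ Finset.range (s + 1), (B i).card :=
      Finset.card_biUnion_le
    have h2 : ∀ i, (B i).card = 0 := by
      intro i
      by_contra hne
      have h3 : (1 : ℝ) ≤ (B i).card := by exact_mod_cast Nat.one_le_iff_ne_zero.2 hne
      have h4 := hBc i
      have h5 : (P.card : ℝ) ≤ 2 := by exact_mod_cast hP2
      nlinarith
    have h3 : ∑ i ∈ Finset.range (s + 1), (B i).card = 0 := Finset.sum_eq_zero fun i _ => h2 i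
    omega
  · intro θ hθ hθB θ' hθ' hθB' heq i hi x
    have hi' : i ∈ Finset.range (s + 1) := Finset.mem_range.2 (Nat.lt_succ_of_le hi)
    have h1 : θ ∉ B i := fun h => hθB (Finset.mem_biUnion.2 ⟨i, hi', h⟩)
    have h2 : θ' ∉ B i := fun h => hθB' (Finset.mem_biUnion.2 ⟨i, hi', h⟩)
    refine hrec i θ hθ h1 θ' hθ' h2 ?_ x
    funext k
    have h3 : ∀ q p : (i : Fin (s + 1)) × Fin (d i), q = p →
        rec q.1 θ q.2 = rec q.1 θ' q.2 → rec p.1 θ p.2 = rec p.1 θ' p.2 := by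
      rintro q p rfl h
      exact h
    exact h3 _ ⟨⟨i, Nat.lt_succ_of_le hi⟩, k⟩ (finSigmaFinEquiv.symm_apply_apply _)
      (congrFun heq (finSigmaFinEquiv ⟨⟨i, Nat.lt_succ_of_le hi⟩, k⟩))

/-- `Σ_{i≤s} XX · (1 + log K) ≤ 2^41 n² 4^s GG M` -/
theorem XX_sum_le (n m s : ℕ) (hn : 8 ≤ n) {M : ℝ} (hM : 1 ≤ M) :
    (∑ i ∈ Finset.range (s + 1), XX n m i M) * (1 + Real.log (KK n)) ≤
      2 ^ 41 * (n : ℝ) ^ 2 * 4 ^ s * GG n m * M := by
  have hG : 0 ≤ GG n m := by
    unfold GG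
    positivity
  have hn' : (8 : ℝ) ≤ n := by exact_mod_cast hn
  have h1 : ∑ i ∈ Finset.range (s + 1), XX n m i M =
      2 ^ 37 * n * M * GG n m * ∑ i ∈ Finset.range (s + 1), (4 : ℝ) ^ i := by
    rw [Finset.mul_sum]
    refine Finset.sum_congr rfl fun i _ => ?_
    unfold XX
    ring
  have h2 : ∑ i ∈ Finset.range (s + 1), (4 : ℝ) ^ i ≤ 4 / 3 * 4 ^ s := by
    rw [geom_sum_eq (by norm_num)]
    rw [pow_succ]
    have : (0 : ℝ) < 4 ^ s := by positivity
    linarith
  have h3 : 1 + Real.log (KK n) ≤ 12 * n := by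
    have h4 : ((KK n : ℕ) : ℝ) ≤ Real.exp (14 + n) := by
      have h5 : ((KK n : ℕ) : ℝ) ≤ 2 ^ (14 + n) := by
        unfold KK
        push_cast
        rw [pow_add]
        gcongr
        norm_num
      have h6 : (2 : ℝ) ^ (14 + n) ≤ Real.exp 1 ^ (14 + n) := by
        apply pow_le_pow_left₀ (by norm_num)
        have := Real.add_one_le_exp (1 : ℝ)
        linarith
      rw [← Real.exp_nat_mul] at h6
      push_cast at h6
      rw [mul_one] at h6
      exact h5.trans h6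
    have h7 : Real.log (KK n) ≤ 14 + n := by
      rw [Real.log_le_iff_le_exp]
      · exact h4
      · unfold KK
        positivity
    linarith
  have hK0 : 0 ≤ 1 + Real.log (KK n) := by
    have : 0 ≤ Real.log (KK n) := Real.log_natCast_nonneg _
    linarith
  rw [h1]
  have hc : 0 ≤ 2 ^ 37 * (n : ℝ) * M * GG n m := by positivity
  calc 2 ^ 37 * (n : ℝ) * M * GG n m * (∑ i ∈ Finset.range (s + 1), (4 : ℝ) ^ i) *
        (1 + Real.log (KK n))
      ≤ 2 ^ 37 * (n : ℝ) * M * GG n m * (4 / 3 * 4 ^ s) * (12 * n) := by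
        apply mul_le_mul _ h3 hK0
        · positivity
        · exact mul_le_mul_of_nonneg_left h2 hc
    _ = _ := by ring

/-- counting: `|P| ≤ 2 |P ∖ B| ≤ 2 K^d e^{4MF}`; if `|P| ≥ 2`, apply `all_scales` to a pair: either
`ΣXX ≥ 1` or `d = 0` and `2 ≤ e^{4MF}`; so `2 ≤ e^{ΣXX + 4MF}`.  Result
`|P| ≤ exp(8MF + ΣXX (1 + log K))`. -/
theorem combine (m s : ℕ) {M F : ℝ} (hM : 1 ≤ M) (hF : 0 ≤ F) (hι : 8 ≤ Fintype.card ι)
    (hs : s ≤ Fintype.card ι)
    (P : Finset ((ι → Bool) → ℝ)) (hP : ∀ θ ∈ P, DegLe m θ ∧ ∑ x, dz (θ x) ^ 2 ≤ M)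
    (H : ∀ P' : Finset ((ι → Bool) → ℝ), P' ⊆ P →
      (∀ θ ∈ P', ∀ θ' ∈ P', ∀ i ≤ s, ∀ x, dz (2 ^ i * (θ x - θ' x)) ≤ 1 / 4096) →
      (P'.card : ℝ) ≤ Real.exp (4 * M * F)) :
    (P.card : ℝ) ≤ Real.exp ((2 ^ 41 * (Fintype.card ι : ℝ) ^ 2 * 4 ^ s *
      GG (Fintype.card ι) m + 8 * F) * M) := by
  classical
  set n := Fintype.card ι with hn
  have hG : 0 ≤ GG n m := by
    unfold GG
    positivity
  set SX : ℝ := ∑ i ∈ Finset.range (s + 1), XX n m i M with hSX
  have hSX0 : 0 ≤ SX := Finset.sum_nonneg fun i _ => by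
    unfold XX
    positivity
  have hL0 : 0 ≤ Real.log (KK n) := Real.log_natCast_nonneg _
  have hMF : 0 ≤ M * F := by positivity
  have hKpos : (0 : ℝ) < (KK n : ℕ) := by
    unfold KK
    positivity
  suffices hmain : (P.card : ℝ) ≤ Real.exp (8 * M * F + SX * (1 + Real.log (KK n))) by
    refine hmain.trans (Real.exp_le_exp.2 ?_)
    have := XX_sum_le n m s hι hM
    linarith
  rcases Nat.lt_or_ge P.card 2 with hc | hc
  · have h1 : (P.card : ℝ) ≤ 1 := by exact_mod_cast Nat.lt_succ_iff.1 hc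
    refine h1.trans (Real.one_le_exp ?_)
    have := mul_nonneg hSX0 (by linarith : (0 : ℝ) ≤ 1 + Real.log (KK n))
    linarith
  -- two elements
  have hA : (2 : ℝ) ≤ Real.exp (SX + 4 * M * F) := by
    obtain ⟨P2, hP2, hP2c⟩ := Finset.exists_subset_card_eq hc
    obtain ⟨d, rec, B, -, hd, -, hB, hrec⟩ := all_scales m s hM hι hs P2
      (fun θ hθ => hP θ (hP2 hθ))
    have hB0 := hB hP2c.le
    subst hB0
    rcases Nat.eq_zero_or_pos d with hd0 | hd0
    · subst hd0
      have h1 := H P2 hP2 (fun θ hθ θ' hθ' i hi x =>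
        hrec θ hθ (by simp) θ' hθ' (by simp) (Subsingleton.elim _ _) i hi x)
      rw [hP2c] at h1
      refine le_trans (by exact_mod_cast h1) (Real.exp_le_exp.2 ?_)
      linarith
    · have h1 : (1 : ℝ) ≤ d := by exact_mod_cast hd0
      have h2 : (2 : ℝ) ≤ Real.exp 1 := by
        have := Real.add_one_le_exp (1 : ℝ)
        linarith
      refine h2.trans (Real.exp_le_exp.2 ?_)
      linarith
  obtain ⟨d, rec, B, hBP, hd, hB, -, hrec⟩ := all_scales m s hM hι hs P hP
  have hG1 : ((P \ B).card : ℝ) ≤ (KK n : ℝ) ^ d * Real.exp (4 * M * F) := by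
    have h1 : (P \ B).card = ∑ r : Fin d → Fin (KK n), ((P \ B).filter fun θ => rec θ = r).card :=
      Finset.card_eq_sum_card_fiberwise (fun _ _ => Finset.mem_univ _)
    rw [h1]
    push_cast
    calc ∑ r : Fin d → Fin (KK n), (((P \ B).filter fun θ => rec θ = r).card : ℝ)
        ≤ ∑ _r : Fin d → Fin (KK n), Real.exp (4 * M * F) := by
          refine Finset.sum_le_sum fun r _ => H _ ?_ ?_
          · exact (Finset.filter_subset _ _).trans Finset.sdiff_subset
          · intro θ hθ θ' hθ' i hi x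
            rw [Finset.mem_filter, Finset.mem_sdiff] at hθ hθ'
            exact hrec θ hθ.1.1 hθ.1.2 θ' hθ'.1.1 hθ'.1.2 (hθ.2.trans hθ'.2.symm) i hi x
      _ = _ := by
          rw [Finset.sum_const, nsmul_eq_mul, Finset.card_univ, Fintype.card_fun,
            Fintype.card_fin, Fintype.card_fin]
          push_cast
          ring
  have hcard : ((P \ B).card : ℝ) = P.card - B.card := by
    rw [Finset.card_sdiff_of_subset hBP, Nat.cast_sub (Finset.card_le_card hBP)]
  have hP2 : (P.card : ℝ) ≤ 2 * ((KK n : ℝ) ^ d * Real.exp (4 * M * F)) := by linarith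
  have hKd : (KK n : ℝ) ^ d ≤ Real.exp (SX * Real.log (KK n)) := by
    rw [← Real.exp_log hKpos, ← Real.exp_nat_mul, Real.log_exp]
    apply Real.exp_le_exp.2
    exact mul_le_mul_of_nonneg_right hd hL0
  calc (P.card : ℝ) ≤ 2 * ((KK n : ℝ) ^ d * Real.exp (4 * M * F)) := hP2
    _ ≤ Real.exp (SX + 4 * M * F) * (Real.exp (SX * Real.log (KK n)) * Real.exp (4 * M * F)) := by
        gcongr
    _ = _ := by
        rw [← Real.exp_add, ← Real.exp_add]
        congr 1
        ring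

end P047F
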