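import Vale.Agent.Lib.P047F.IA.Dop

/-!
# P047F IA/Dims: dimension counts
-/

open Finset

namespace P047F

variable {ι : Type} [Fintype ι] [DecidableEq ι]

/-- sets of size at most `m` -/
def low (ι : Type) [Fintype ι] [DecidableEq ι] (m : ℕ) : Finset (Finset ι) :=
  Finset.univ.filter (fun S => S.card ≤ m)

/-- `Σ_{j ≤ m} C(n,j) ≤ 3^m (4/3)^n` (multiply each term by `3^{m-j} ≥ 1`) -/
theorem card_low_le (m : ℕ) :
    ((low ι m).card : ℝ) ≤ 2 ^ Fintype.card ι * GG (Fintype.card ι) m := by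
  have h1 : ((low ι m).card : ℝ) = ∑ S : Finset ι, if S.card ≤ m then (1 : ℝ) else 0 := by
    rw [low, Finset.sum_ite, Finset.sum_const_zero, add_zero, Finset.sum_const, nsmul_eq_mul,
      mul_one]
  have h2 : ∀ S : Finset ι, (if S.card ≤ m then (1 : ℝ) else 0) ≤
      3 ^ m * ∏ _i ∈ S, (1 / 3 : ℝ) := by
    intro S
    rw [Finset.prod_const]
    split_ifs with h
    · have h3 : (3 : ℝ) ^ m = 3 ^ (m - S.card) * 3 ^ S.card := by
        rw [← pow_add]
        congr 1
        omega
      rw [h3, mul_assoc, ← mul_pow]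
      norm_num
      exact one_le_pow₀ (by norm_num)
    · positivity
  have h3 : ∑ S : Finset ι, ∏ _i ∈ S, (1 / 3 : ℝ) = (4 / 3 : ℝ) ^ Fintype.card ι := by
    have h4 := Finset.prod_one_add (s := (Finset.univ : Finset ι)) (f := fun _ => (1 / 3 : ℝ))
    rw [Finset.powerset_univ, Finset.prod_const, Finset.card_univ] at h4
    rw [← h4]
    norm_num
  rw [h1]
  calc ∑ S : Finset ι, (if S.card ≤ m then (1 : ℝ) else 0)
      ≤ ∑ S : Finset ι, 3 ^ m * ∏ _i ∈ S, (1 / 3 : ℝ) := Finset.sum_le_sum fun S _ => h2 S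
    _ = 3 ^ m * (4 / 3 : ℝ) ^ Fintype.card ι := by rw [← Finset.mul_sum, h3]
    _ = 2 ^ Fintype.card ι * GG (Fintype.card ι) m := by
        unfold GG
        have h5 : (4 / 3 : ℝ) ^ Fintype.card ι =
            2 ^ Fintype.card ι * (2 / 3 : ℝ) ^ Fintype.card ι := by
          rw [← mul_pow]
          norm_num
        rw [h5]
        ring

open Classical in
/-- active characters for the directions `y` -/
noncomputable def Act (m : ℕ) {l : ℕ} (y : Fin l → (ι → Bool)) : Finset (Finset ι) :=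
  (low ι m).filter (fun S => ∀ a, chi S (y a) = -1)

omit [Fintype ι] in
theorem Dims_chi_or (S : Finset ι) (x : ι → Bool) : chi S x = 1 ∨ chi S x = -1 := by
  unfold chi
  induction S using Finset.induction_on with
  | empty => left; simp
  | insert a s ha ih =>
    rw [Finset.prod_insert ha]
    rcases ih with h | h <;> rw [h] <;> split_ifs <;> simp

/-- at most half of the points have a given character equal to `-1` -/
theorem Dims_half (S : Finset ι) :
    ((Finset.univ.filter (fun z : ι → Bool => chi S z = -1)).card : ℝ) ≤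
      2 ^ Fintype.card ι / 2 := by
  have h1 : (0 : ℝ) ≤ ∑ y : ι → Bool, (chi S y : ℝ) := by
    rw [comp_sum_chi]
    split_ifs
    · positivity
    · exact le_rfl
  have h2 : ∀ y : ι → Bool, (chi S y : ℝ) = 1 - 2 * (if chi S y = -1 then (1 : ℝ) else 0) := by
    intro y
    rcases Dims_chi_or S y with h | h
    · rw [h]
      norm_num
    · rw [h]
      norm_num
  rw [Finset.sum_congr rfl fun y _ => h2 y, Finset.sum_sub_distrib, ← Finset.mul_sum,
    Finset.sum_ite, Finset.sum_const_zero, add_zero, Finset.sum_const, Finset.sum_const,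
    nsmul_eq_mul, nsmul_eq_mul, mul_one, mul_one, Finset.card_univ, Fintype.card_fun,
    Fintype.card_bool] at h1
  push_cast at h1
  linarith

/-- average number of active characters: at most `2^{-l} · #low` (for `S ≠ ∅` each condition has
probability `1/2`; `S = ∅` is never active for `l ≥ 1`; for `l = 0` all are active) -/
theorem sum_card_Act (m l : ℕ) :
    ∑ y : Fin l → (ι → Bool), ((Act m y).card : ℝ) ≤
      (Fintype.card (Fin l → (ι → Bool)) : ℝ) * ((low ι m).card / 2 ^ l) := by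
  classical
  have h1 : ∀ y : Fin l → (ι → Bool), ((Act m y).card : ℝ) =
      ∑ S ∈ low ι m, ∏ a, (if chi S (y a) = -1 then (1 : ℝ) else 0) := by
    intro y
    have h2 : ∀ S ∈ low ι m, (∏ a, (if chi S (y a) = -1 then (1 : ℝ) else 0)) =
        if (∀ a, chi S (y a) = -1) then (1 : ℝ) else 0 := by
      intro S _
      split_ifs with h
      · exact Finset.prod_eq_one fun a _ => if_pos (h a)
      · push Not at h
        obtain ⟨a, ha⟩ := h
        exact Finset.prod_eq_zero (Finset.mem_univ a) (if_neg ha)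
    rw [Finset.sum_congr rfl h2, Finset.sum_ite, Finset.sum_const_zero, add_zero,
      Finset.sum_const, nsmul_eq_mul, mul_one]
    rfl
  simp_rw [h1]
  rw [Finset.sum_comm]
  have h3 : ∀ S ∈ low ι m, ∑ y : Fin l → (ι → Bool),
      ∏ a, (if chi S (y a) = -1 then (1 : ℝ) else 0) ≤ (2 ^ Fintype.card ι / 2) ^ l := by
    intro S _
    have h4 : ∑ y : Fin l → (ι → Bool), ∏ a, (if chi S (y a) = -1 then (1 : ℝ) else 0) =
        ∏ _a : Fin l, ∑ z : ι → Bool, (if chi S z = -1 then (1 : ℝ) else 0) := by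
      rw [Finset.prod_univ_sum, Fintype.piFinset_univ]
    rw [h4, Finset.prod_const, Finset.card_univ, Fintype.card_fin]
    refine pow_le_pow_left₀ (Finset.sum_nonneg fun z _ => by split_ifs <;> norm_num) ?_ l
    rw [Finset.sum_ite, Finset.sum_const_zero, add_zero, Finset.sum_const, nsmul_eq_mul, mul_one]
    exact Dims_half S
  refine (Finset.sum_le_sum h3).trans (le_of_eq ?_)
  rw [Finset.sum_const, nsmul_eq_mul, Fintype.card_fun, Fintype.card_fun, Fintype.card_bool,
    Fintype.card_fin, div_pow]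
  push_cast
  ring

/-- linearity of `Dop` for finite sums -/
theorem Dims_Dop_sum {α : Type} (l : ℕ) (y : Fin l → (ι → Bool)) (s : Finset α) (c : α → ℝ)
    (g : α → (ι → Bool) → ℝ) (x : ι → Bool) :
    Dop l y (fun z => ∑ S ∈ s, c S * g S z) x = ∑ S ∈ s, c S * Dop l y (g S) x := by
  classical
  induction s using Finset.induction_on with
  | empty =>
    have h := Dop_smul l y 0 (fun _ => (0 : ℝ)) x
    simp only [Finset.sum_empty]
    simpa using h
  | insert a s ha ih =>
    simp only [Finset.sum_insert ha]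
    rw [Dop_add l y (fun z => c a * g a z) (fun z => ∑ S ∈ s, c S * g S z), ih, Dop_smul]

/-- `D_y` of a function of degree `≤ m` is a combination of active characters -/
theorem Dop_eq_sum_Act {m : ℕ} {θ : (ι → Bool) → ℝ} (hθ : DegLe m θ) {l : ℕ}
    (y : Fin l → (ι → Bool)) :
    ∃ b : Finset ι → ℝ, ∀ x, Dop l y θ x = ∑ S ∈ Act m y, b S * (chi S x : ℝ) := by
  classical
  refine ⟨fun S => (∑ z, θ z * (chi S z : ℝ)) / 2 ^ Fintype.card ι *
    ∏ a, (1 - (chi S (y a) : ℝ)), fun x => ?_⟩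
  have h1 : θ = fun z => ∑ S ∈ (Finset.univ : Finset (Finset ι)),
      ((∑ z, θ z * (chi S z : ℝ)) / 2 ^ Fintype.card ι) * (chi S z : ℝ) :=
    funext fun z => fourier_inv θ z
  have h2 : Dop l y θ x = ∑ S : Finset ι, ((∑ z, θ z * (chi S z : ℝ)) / 2 ^ Fintype.card ι) *
      ((∏ a, (1 - (chi S (y a) : ℝ))) * (chi S x : ℝ)) := by
    conv_lhs => rw [h1]
    rw [Dims_Dop_sum l y Finset.univ
      (fun S => (∑ z, θ z * (chi S z : ℝ)) / 2 ^ Fintype.card ι) (fun S z => (chi S z : ℝ)) x]
    refine Finset.sum_congr rfl fun S _ => ?_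
    rw [Dop_chi]
  rw [h2]
  symm
  rw [Finset.sum_subset (Finset.subset_univ (Act m y))]
  · refine Finset.sum_congr rfl fun S _ => ?_
    ring
  · intro S _ hS
    by_cases hm : S.card ≤ m
    · have h3 : ∃ a, chi S (y a) ≠ -1 := by
        by_contra h4
        push Not at h4
        exact hS (Finset.mem_filter.2 ⟨Finset.mem_filter.2 ⟨Finset.mem_univ S, hm⟩, h4⟩)
      obtain ⟨a, ha⟩ := h3
      have h4 : chi S (y a) = 1 := (Dims_chi_or S (y a)).resolve_right ha
      have h5 : ∏ a, (1 - (chi S (y a) : ℝ)) = 0 :=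
        Finset.prod_eq_zero (Finset.mem_univ a) (by rw [h4]; norm_num)
      beta_reduce
      rw [h5]
      ring
    · beta_reduce
      rw [hθ S (by omega)]
      ring

/-- the discretisation number -/
def KK (n : ℕ) : ℕ := 12288 * 2 ^ n

theorem Dims_KK_pos (n : ℕ) : 0 < KK n := by
  unfold KK
  positivity

/-- the record of one coordinate -/
noncomputable def Dims_rec (n : ℕ) (t : ℝ) : Fin (KK n) :=
  ⟨⌊(KK n : ℝ) * Int.fract t⌋₊, by
    have h0 : (0 : ℝ) < KK n := by exact_mod_cast Dims_KK_pos n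
    rw [Nat.floor_lt (mul_nonneg h0.le (Int.fract_nonneg t))]
    calc (KK n : ℝ) * Int.fract t < KK n * 1 := mul_lt_mul_of_pos_left (Int.fract_lt_one t) h0
      _ = KK n := mul_one _⟩

theorem Dims_rec_close (n : ℕ) {s t : ℝ} (h : Dims_rec n s = Dims_rec n t) :
    |s - t - ((⌊s⌋ - ⌊t⌋ : ℤ) : ℝ)| ≤ 1 / KK n := by
  have h0 : (0 : ℝ) < KK n := by exact_mod_cast Dims_KK_pos n
  have h1 : ⌊(KK n : ℝ) * Int.fract s⌋₊ = ⌊(KK n : ℝ) * Int.fract t⌋₊ := congrArg Fin.val h
  have s1 := Nat.floor_le (mul_nonneg h0.le (Int.fract_nonneg s))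
  have s2 := Nat.lt_floor_add_one ((KK n : ℝ) * Int.fract s)
  have t1 := Nat.floor_le (mul_nonneg h0.le (Int.fract_nonneg t))
  have t2 := Nat.lt_floor_add_one ((KK n : ℝ) * Int.fract t)
  rw [h1] at s1 s2
  have h2 : s - t - ((⌊s⌋ - ⌊t⌋ : ℤ) : ℝ) = Int.fract s - Int.fract t := by
    rw [Int.fract, Int.fract]
    push_cast
    ring
  rw [h2, le_div_iff₀ h0]
  have h3 : |Int.fract s - Int.fract t| * KK n = |KK n * Int.fract s - KK n * Int.fract t| := by
    rw [← mul_sub, abs_mul, abs_of_pos h0]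
    ring
  rw [h3, abs_le]
  constructor <;> linarith

/-- Records.  For fixed directions `y` there is a map from functions to `Act m y → ZMod K` such that
two functions of degree `≤ m` with the same record have `D_y (c θ) - D_y (c θ')` within `1/12288` of an
integer valued function (`b_S - b'_S` = integer + error `≤ 1/K`, at most `2^n` terms, `K = 12288·2^n`). -/
theorem record_exists (m : ℕ) {l : ℕ} (y : Fin l → (ι → Bool)) (c : ℝ) :
    ∃ rec : ((ι → Bool) → ℝ) → (Act m y → Fin (KK (Fintype.card ι))),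
      ∀ θ θ' : (ι → Bool) → ℝ, DegLe m θ → DegLe m θ' → rec θ = rec θ' →
        ∃ h : (ι → Bool) → ℤ, ∀ x,
          |Dop l y (fun z => c * (θ z - θ' z)) x - h x| ≤ 1 / 12288 := by
  classical
  have hex : ∀ θ : (ι → Bool) → ℝ, ∃ b : Finset ι → ℝ, DegLe m θ →
      ∀ x, Dop l y θ x = ∑ S ∈ Act m y, b S * (chi S x : ℝ) := by
    intro θ
    by_cases hθ : DegLe m θ
    · obtain ⟨b, hb⟩ := Dop_eq_sum_Act hθ y
      exact ⟨b, fun _ => hb⟩
    · exact ⟨0, fun h => absurd h hθ⟩
  choose b hb using hex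
  refine ⟨fun θ S => Dims_rec (Fintype.card ι) (c * b θ S.1), fun θ θ' hθ hθ' hrec => ?_⟩
  have hrec' : ∀ S ∈ Act m y, Dims_rec (Fintype.card ι) (c * b θ S) =
      Dims_rec (Fintype.card ι) (c * b θ' S) := fun S hS => congrFun hrec ⟨S, hS⟩
  refine ⟨fun x => ∑ S ∈ Act m y, (⌊c * b θ S⌋ - ⌊c * b θ' S⌋) * chi S x, fun x => ?_⟩
  have h1 : Dop l y (fun z => c * (θ z - θ' z)) x =
      ∑ S ∈ Act m y, (c * b θ S - c * b θ' S) * (chi S x : ℝ) := by
    have h2 : (fun z => c * (θ z - θ' z)) = fun z => c * (θ z + (-1) * θ' z) := by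
      funext z
      ring
    rw [h2, Dop_smul, Dop_add l y θ (fun z => (-1) * θ' z), Dop_smul, hb θ hθ, hb θ' hθ',
      Finset.mul_sum, ← Finset.sum_add_distrib, Finset.mul_sum]
    refine Finset.sum_congr rfl fun S _ => ?_
    ring
  rw [h1]
  push_cast
  rw [← Finset.sum_sub_distrib]
  have h3 : ∀ S ∈ Act m y, |(c * b θ S - c * b θ' S) * (chi S x : ℝ) -
      ((⌊c * b θ S⌋ : ℝ) - (⌊c * b θ' S⌋ : ℝ)) * (chi S x : ℝ)| ≤ 1 / KK (Fintype.card ι) := by
    intro S hS
    have h4 := Dims_rec_close _ (hrec' S hS)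
    rw [← sub_mul, abs_mul]
    have h5 : |(chi S x : ℝ)| = 1 := by
      rcases Dims_chi_or S x with h | h <;> rw [h] <;> norm_num
    rw [h5, mul_one]
    push_cast at h4
    exact h4
  refine (Finset.abs_sum_le_sum_abs _ _).trans ((Finset.sum_le_sum h3).trans ?_)
  rw [Finset.sum_const, nsmul_eq_mul]
  have h6 : ((Act m y).card : ℝ) ≤ 2 ^ Fintype.card ι := by
    have h7 : (Act m y).card ≤ 2 ^ Fintype.card ι := by
      calc (Act m y).card ≤ (Finset.univ : Finset (Finset ι)).card :=
            Finset.card_le_card (Finset.subset_univ _)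
        _ = 2 ^ Fintype.card ι := by rw [Finset.card_univ, Fintype.card_finset]
    exact_mod_cast h7
  calc ((Act m y).card : ℝ) * (1 / KK (Fintype.card ι))
      ≤ 2 ^ Fintype.card ι * (1 / KK (Fintype.card ι)) :=
        mul_le_mul_of_nonneg_right h6 (by positivity)
    _ = 1 / 12288 := by
        unfold KK
        push_cast
        field_simp

end P047F
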