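import Vale.Agent.Lib.P047F.I.IDefs
import Vale.Agent.Lib.P047F.VI.Comp

/-!
# P047F IA/Dop: random XOR differences
-/

open Finset

namespace P047F

variable {ι : Type} [Fintype ι] [DecidableEq ι]

/-- XOR of two points -/
def xr (x y : ι → Bool) : ι → Bool := fun i => xor (x i) (y i)

/-- iterated differences: `D_{ℓ+1} g (x) = D_ℓ g (x) - D_ℓ g (x ⊕ y_0)` -/
def Dop : (l : ℕ) → (Fin l → (ι → Bool)) → ((ι → Bool) → ℝ) → (ι → Bool) → ℝ
  | 0, _, g => g
  | l + 1, y, g => fun x =>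
      Dop l (fun a => y a.succ) g x - Dop l (fun a => y a.succ) g (xr x (y 0))

theorem Dop_add (l : ℕ) (y : Fin l → (ι → Bool)) (g h : (ι → Bool) → ℝ) (x : ι → Bool) :
    Dop l y (fun z => g z + h z) x = Dop l y g x + Dop l y h x := by
  induction l generalizing x with
  | zero => rfl
  | succ l ih =>
    simp only [Dop]
    rw [ih, ih]
    ring

theorem Dop_smul (l : ℕ) (y : Fin l → (ι → Bool)) (c : ℝ) (g : (ι → Bool) → ℝ) (x : ι → Bool) :
    Dop l y (fun z => c * g z) x = c * Dop l y g x := by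
  induction l generalizing x with
  | zero => rfl
  | succ l ih =>
    simp only [Dop]
    rw [ih, ih]
    ring

/-- integer valued functions are mapped to integer valued functions -/
theorem Dop_int (l : ℕ) (y : Fin l → (ι → Bool)) (g : (ι → Bool) → ℤ) :
    ∃ h : (ι → Bool) → ℤ, ∀ x, Dop l y (fun z => (g z : ℝ)) x = h x := by
  induction l with
  | zero => exact ⟨g, fun x => rfl⟩
  | succ l ih =>
    obtain ⟨h, hh⟩ := ih (fun a => y a.succ)
    refine ⟨fun x => h x - h (xr x (y 0)), fun x => ?_⟩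
    simp only [Dop]
    rw [hh, hh]
    push_cast
    rfl

theorem chi_xr (S : Finset ι) (x y : ι → Bool) : chi S (xr x y) = chi S x * chi S y := by
  unfold chi
  rw [← Finset.prod_mul_distrib]
  refine Finset.prod_congr rfl fun i _ => ?_
  unfold xr
  cases x i <;> cases y i <;> simp

/-- action on characters -/
theorem Dop_chi (l : ℕ) (y : Fin l → (ι → Bool)) (S : Finset ι) (x : ι → Bool) :
    Dop l y (fun z => (chi S z : ℝ)) x = (∏ a, (1 - (chi S (y a) : ℝ))) * (chi S x : ℝ) := by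
  induction l generalizing x with
  | zero => simp [Dop]
  | succ l ih =>
    simp only [Dop]
    rw [ih, ih, chi_xr, Fin.prod_univ_succ]
    push_cast
    ring

private theorem Dop_xr_inv (x y : ι → Bool) : xr (xr x y) y = x := by
  funext i
  unfold xr
  cases x i <;> cases y i <;> rfl

private theorem Dop_xr_inv' (x y : ι → Bool) : xr x (xr x y) = y := by
  funext i
  unfold xr
  cases x i <;> cases y i <;> rfl

private theorem Dop_sum_xr (f : (ι → Bool) → ℝ) (y : ι → Bool) :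
    ∑ x, f (xr x y) = ∑ x, f x :=
  Equiv.sum_comp (Function.Involutive.toPerm (fun x => xr x y) fun x => Dop_xr_inv x y) f

private theorem Dop_sum_xr' (f : (ι → Bool) → ℝ) (x : ι → Bool) :
    ∑ y, f (xr x y) = ∑ y, f y :=
  Equiv.sum_comp (Function.Involutive.toPerm (fun y => xr x y) fun y => Dop_xr_inv' x y) f

/-- for `l ≥ 1` the function `D_l g` has mean zero -/
theorem Dop_sum_zero (l : ℕ) (y : Fin (l + 1) → (ι → Bool)) (g : (ι → Bool) → ℝ) :
    ∑ x, Dop (l + 1) y g x = 0 := by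
  simp only [Dop]
  rw [Finset.sum_sub_distrib, Dop_sum_xr (fun x => Dop l (fun a => y a.succ) g x), sub_self]

private theorem Dop_sum_cons (l : ℕ) (F : (Fin (l + 1) → (ι → Bool)) → ℝ) :
    ∑ y, F y = ∑ y' : Fin l → (ι → Bool), ∑ y0 : ι → Bool, F (Fin.cons y0 y') := by
  rw [← Equiv.sum_comp (Fin.consEquiv fun _ : Fin (l + 1) => (ι → Bool)) F,
    Fintype.sum_prod_type, Finset.sum_comm]
  rfl

private theorem Dop_cons (l : ℕ) (y' : Fin l → (ι → Bool)) (y0 : ι → Bool)
    (g : (ι → Bool) → ℝ) (x : ι → Bool) :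
    Dop (l + 1) (Fin.cons y0 y') g x = Dop l y' g x - Dop l y' g (xr x y0) := by
  simp only [Dop, Fin.cons_succ, Fin.cons_zero]

private theorem Dop_cardQ : (Fintype.card (ι → Bool) : ℝ) = 2 ^ Fintype.card ι := by
  simp

private theorem Dop_card (l : ℕ) : (Fintype.card (Fin (l + 1) → (ι → Bool)) : ℝ) =
    2 ^ Fintype.card ι * Fintype.card (Fin l → (ι → Bool)) := by
  simp only [Fintype.card_fun, Fintype.card_fin, Fintype.card_bool]
  push_cast
  ring

/-- `E_y Σ_z |D_l g(z)|² ≤ 2^l Σ_z g²` (one step: `Σ_z (g(z) - g(z⊕y))²` averaged over `y` is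
`2 Σ g² - 2 (Σ g)²/2^n`) -/
theorem Dop_energy (l : ℕ) (g : (ι → Bool) → ℝ) :
    ∑ y : Fin l → (ι → Bool), ∑ z, Dop l y g z ^ 2 ≤
      (Fintype.card (Fin l → (ι → Bool)) : ℝ) * (2 ^ l * ∑ z, g z ^ 2) := by
  induction l with
  | zero => simp [Dop]
  | succ l ih =>
    rw [Dop_sum_cons, Dop_card]
    have h1 : ∀ y' : Fin l → (ι → Bool), ∑ y0 : ι → Bool,
        ∑ z, Dop (l + 1) (Fin.cons y0 y') g z ^ 2 ≤
        2 * 2 ^ Fintype.card ι * ∑ z, Dop l y' g z ^ 2 := by
      intro y'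
      set h := Dop l y' g with hh
      have e1 : ∑ y0 : ι → Bool, ∑ z, Dop (l + 1) (Fin.cons y0 y') g z ^ 2 =
          ∑ y0 : ι → Bool, ∑ z, (h z ^ 2 + h (xr z y0) ^ 2 - 2 * (h z * h (xr z y0))) := by
        refine Finset.sum_congr rfl fun y0 _ => Finset.sum_congr rfl fun z _ => ?_
        rw [Dop_cons, ← hh]
        ring
      have e2 : ∀ y0 : ι → Bool, ∑ z, h (xr z y0) ^ 2 = ∑ z, h z ^ 2 := fun y0 =>
        Dop_sum_xr (fun z => h z ^ 2) y0
      have e3 : ∑ y0 : ι → Bool, ∑ z, h z * h (xr z y0) = (∑ z, h z) ^ 2 := by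
        rw [Finset.sum_comm]
        simp_rw [← Finset.mul_sum]
        have e4 : ∀ z : ι → Bool, ∑ y0, h (xr z y0) = ∑ z, h z := fun z => Dop_sum_xr' h z
        simp_rw [e4]
        rw [← Finset.sum_mul, sq]
      rw [e1]
      simp_rw [Finset.sum_sub_distrib, Finset.sum_add_distrib, e2, ← Finset.mul_sum]
      rw [e3, Finset.sum_const, Finset.card_univ, nsmul_eq_mul, Dop_cardQ]
      have := sq_nonneg (∑ z, h z)
      linarith
    calc ∑ y' : Fin l → (ι → Bool), ∑ y0 : ι → Bool, ∑ z, Dop (l + 1) (Fin.cons y0 y') g z ^ 2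
        ≤ ∑ y' : Fin l → (ι → Bool), 2 * 2 ^ Fintype.card ι * ∑ z, Dop l y' g z ^ 2 :=
          Finset.sum_le_sum fun y' _ => h1 y'
      _ = 2 * 2 ^ Fintype.card ι * ∑ y' : Fin l → (ι → Bool), ∑ z, Dop l y' g z ^ 2 := by
          rw [Finset.mul_sum]
      _ ≤ 2 * 2 ^ Fintype.card ι * ((Fintype.card (Fin l → (ι → Bool)) : ℝ) *
          (2 ^ l * ∑ z, g z ^ 2)) := by
          gcongr
      _ = _ := by ring

/-- second moment of the noise `R_l = D_l g (x) - g x`: `E R_{l+1}² = E R_l² + E mean |D_l g|²`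
(the cross term vanishes: for `l ≥ 1` by `Dop_sum_zero`, for `l = 0` since `R_0 = 0`), so
`E R_l² ≤ (2^l - 1) mean g²` -/
theorem Dop_noise (l : ℕ) (g : (ι → Bool) → ℝ) (x : ι → Bool) :
    ∑ y : Fin l → (ι → Bool), (Dop l y g x - g x) ^ 2 ≤
      (Fintype.card (Fin l → (ι → Bool)) : ℝ) *
        ((2 ^ l - 1) * (∑ z, g z ^ 2) / 2 ^ Fintype.card ι) := by
  induction l with
  | zero => simp [Dop]
  | succ l ih =>
    rw [Dop_sum_cons, Dop_card]
    have h1 : ∀ y' : Fin l → (ι → Bool), ∑ y0 : ι → Bool,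
        (Dop (l + 1) (Fin.cons y0 y') g x - g x) ^ 2 =
        2 ^ Fintype.card ι * (Dop l y' g x - g x) ^ 2 + ∑ z, Dop l y' g z ^ 2 := by
      intro y'
      have hcross : (Dop l y' g x - g x) * ∑ z, Dop l y' g z = 0 := by
        cases l with
        | zero => simp [Dop]
        | succ l => rw [Dop_sum_zero, mul_zero]
      have e1 : ∑ y0 : ι → Bool, (Dop (l + 1) (Fin.cons y0 y') g x - g x) ^ 2 =
          ∑ y0 : ι → Bool, ((Dop l y' g x - g x) ^ 2 + Dop l y' g (xr x y0) ^ 2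
            - 2 * (Dop l y' g x - g x) * Dop l y' g (xr x y0)) := by
        refine Finset.sum_congr rfl fun y0 _ => ?_
        rw [Dop_cons]
        ring
      rw [e1, Finset.sum_sub_distrib, Finset.sum_add_distrib, ← Finset.mul_sum,
        Dop_sum_xr' (fun z => Dop l y' g z ^ 2) x, Dop_sum_xr' (fun z => Dop l y' g z) x,
        Finset.sum_const, Finset.card_univ, nsmul_eq_mul, Dop_cardQ, mul_assoc, hcross]
      ring
    have h2 : (2 : ℝ) ^ Fintype.card ι ≠ 0 := by positivity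
    calc ∑ y' : Fin l → (ι → Bool), ∑ y0 : ι → Bool,
          (Dop (l + 1) (Fin.cons y0 y') g x - g x) ^ 2
        = 2 ^ Fintype.card ι * (∑ y' : Fin l → (ι → Bool), (Dop l y' g x - g x) ^ 2) +
            ∑ y' : Fin l → (ι → Bool), ∑ z, Dop l y' g z ^ 2 := by
          simp_rw [h1]
          rw [Finset.sum_add_distrib, Finset.mul_sum]
      _ ≤ 2 ^ Fintype.card ι * ((Fintype.card (Fin l → (ι → Bool)) : ℝ) *
            ((2 ^ l - 1) * (∑ z, g z ^ 2) / 2 ^ Fintype.card ι)) +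
          (Fintype.card (Fin l → (ι → Bool)) : ℝ) * (2 ^ l * ∑ z, g z ^ 2) := by
          have h3 := Dop_energy l g
          gcongr
      _ = _ := by
          field_simp
          ring

end P047F
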