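import Vale.Agent.Lib.P047F.IA.Dims

/-!
# P047F IA/Single: the records at one scale
-/

open Finset

namespace P047F

variable {ι : Type} [Fintype ι] [DecidableEq ι]

/-- choice of `l`: `2^l - 1 ≤ 2^n/(2^34 · 4^i M)·...`.  Exact form: there is `l` with
`(2^l - 1) · 4^i · M ≤ 2^n / (64 · 12288²)` and `1/2^l ≤ 128 · 12288² · 4^i M / 2^n`. -/
theorem exists_l (n i : ℕ) {M : ℝ} (hM : 1 ≤ M) :
    ∃ l : ℕ, ((2 : ℝ) ^ l - 1) * (4 ^ i * M) ≤ 2 ^ n / (64 * 12288 ^ 2) ∧
      1 / (2 : ℝ) ^ l ≤ 128 * 12288 ^ 2 * (4 ^ i * M) / 2 ^ n := by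
  have hB : (0 : ℝ) < 4 ^ i * M := by positivity
  generalize (4 : ℝ) ^ i * M = B at hB ⊢
  have hN : (0 : ℝ) < 2 ^ n := by positivity
  generalize (2 : ℝ) ^ n = N at hN ⊢
  by_cases hZ : 1 ≤ N / (64 * 12288 ^ 2 * B)
  · obtain ⟨l, h1, h2⟩ := exists_nat_pow_near hZ (one_lt_two : (1 : ℝ) < 2)
    refine ⟨l, ?_, ?_⟩
    · rw [le_div_iff₀ (by positivity)] at h1
      rw [le_div_iff₀ (by positivity)]
      nlinarith
    · rw [div_lt_iff₀ (by positivity)] at h2
      rw [div_le_div_iff₀ (by positivity) (by positivity), pow_succ] at *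
      nlinarith
  · refine ⟨0, ?_, ?_⟩
    · rw [pow_zero, sub_self, zero_mul]
      positivity
    · rw [not_le, div_lt_iff₀ (by positivity)] at hZ
      rw [pow_zero, div_one, le_div_iff₀ hN]
      nlinarith

/-- the residual -/
noncomputable def res (θ : (ι → Bool) → ℝ) (x : ι → Bool) : ℝ := θ x - round (θ x)

/-- `θ` is bad for the directions `Y : Fin n → (Fin l → cube)` at scale `i`: at some `x`, at least
half of the samples have noise larger than `1/12288` -/
def Bad (i l : ℕ) (Y : Fin (Fintype.card ι) → (Fin l → (ι → Bool))) (θ : (ι → Bool) → ℝ) : Prop :=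
  ∃ x, ∃ T : Finset (Fin (Fintype.card ι)), Fintype.card ι ≤ 2 * T.card ∧
    ∀ τ ∈ T, 1 / 12288 < |Dop l (Y τ) (fun z => 2 ^ i * res θ z) x - 2 ^ i * res θ x|

open Classical in
/-- Markov for one sample -/
private theorem Single_markov (i l : ℕ) {M : ℝ}
    (hl : ((2 : ℝ) ^ l - 1) * (4 ^ i * M) ≤ 2 ^ Fintype.card ι / (64 * 12288 ^ 2))
    (θ : (ι → Bool) → ℝ) (hE : ∑ x, dz (θ x) ^ 2 ≤ M) (x : ι → Bool) :
    ((Finset.univ.filter (fun y : Fin l → (ι → Bool) =>
      1 / 12288 < |Dop l y (fun z => 2 ^ i * res θ z) x - 2 ^ i * res θ x|)).card : ℝ) ≤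
      (Fintype.card (Fin l → (ι → Bool)) : ℝ) * (1 / 64) := by
  have h1 := Dop_noise l (fun z => 2 ^ i * res θ z) x
  have h2 : ∑ z, (2 ^ i * res θ z) ^ 2 = 4 ^ i * ∑ z, dz (θ z) ^ 2 := by
    rw [Finset.mul_sum]
    refine Finset.sum_congr rfl fun z _ => ?_
    unfold res dz
    rw [mul_pow, sq_abs, ← pow_mul, mul_comm i 2, pow_mul]
    norm_num
  have hN : (0 : ℝ) < 2 ^ Fintype.card ι := by positivity
  have hc : (0 : ℝ) ≤ (Fintype.card (Fin l → (ι → Bool)) : ℝ) := Nat.cast_nonneg _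
  have hl1 : (0 : ℝ) ≤ 2 ^ l - 1 := by
    have : (1 : ℝ) ≤ 2 ^ l := one_le_pow₀ (by norm_num)
    linarith
  have h3 : ((2 : ℝ) ^ l - 1) * (∑ z, (2 ^ i * res θ z) ^ 2) / 2 ^ Fintype.card ι ≤
      1 / (64 * 12288 ^ 2) := by
    rw [h2, div_le_iff₀ hN]
    have h4 : ((2 : ℝ) ^ l - 1) * (4 ^ i * ∑ z, dz (θ z) ^ 2) ≤
        ((2 : ℝ) ^ l - 1) * (4 ^ i * M) := by gcongr
    refine (h4.trans hl).trans (le_of_eq ?_)
    ring
  set A := Finset.univ.filter (fun y : Fin l → (ι → Bool) =>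
      1 / 12288 < |Dop l y (fun z => 2 ^ i * res θ z) x - 2 ^ i * res θ x|) with hA
  have h5 : (A.card : ℝ) * (1 / 12288) ^ 2 ≤
      ∑ y : Fin l → (ι → Bool), (Dop l y (fun z => 2 ^ i * res θ z) x - 2 ^ i * res θ x) ^ 2 := by
    rw [← nsmul_eq_mul, ← Finset.sum_const]
    refine (Finset.sum_le_sum fun y hy => ?_).trans
      (Finset.sum_le_sum_of_subset_of_nonneg (Finset.filter_subset _ _)
        (fun y _ _ => sq_nonneg _))
    have h6 := (Finset.mem_filter.1 hy).2
    rw [← sq_abs (Dop l y (fun z => 2 ^ i * res θ z) x - 2 ^ i * res θ x)]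
    exact pow_le_pow_left₀ (by norm_num) h6.le 2
  have h7 : (A.card : ℝ) * (1 / 12288) ^ 2 ≤
      (Fintype.card (Fin l → (ι → Bool)) : ℝ) * (1 / (64 * 12288 ^ 2)) :=
    (h5.trans h1).trans (mul_le_mul_of_nonneg_left h3 hc)
  have h8 : (1 : ℝ) / (64 * 12288 ^ 2) = 1 / 64 * (1 / 12288) ^ 2 := by norm_num
  rw [h8, ← mul_assoc] at h7
  exact le_of_mul_le_mul_right h7 (by norm_num)

open Classical in
/-- counting samples which are all in a small set, on a set of coordinates -/
private theorem Single_pi {κ β : Type} [Fintype κ] [DecidableEq κ] [Fintype β] (A : Finset β)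
    (T : Finset κ) (hA : (A.card : ℝ) ≤ (Fintype.card β : ℝ) * (1 / 64))
    (hT : Fintype.card κ ≤ 2 * T.card) :
    ((Finset.univ.filter (fun Y : κ → β => ∀ τ ∈ T, Y τ ∈ A)).card : ℝ) ≤
      (1 / 8) ^ Fintype.card κ * Fintype.card (κ → β) := by
  have h1 : Finset.univ.filter (fun Y : κ → β => ∀ τ ∈ T, Y τ ∈ A) =
      Fintype.piFinset (fun τ => if τ ∈ T then A else Finset.univ) := by
    ext Y
    rw [Finset.mem_filter, Fintype.mem_piFinset]
    constructor
    · rintro ⟨-, h⟩ τ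
      split_ifs with hτ
      · exact h τ hτ
      · exact Finset.mem_univ _
    · intro h
      refine ⟨Finset.mem_univ _, fun τ hτ => ?_⟩
      have := h τ
      rwa [if_pos hτ] at this
  have hβ : (0 : ℝ) ≤ Fintype.card β := Nat.cast_nonneg _
  rw [h1, Fintype.card_piFinset, Nat.cast_prod]
  have h2 : ∀ τ ∈ (Finset.univ : Finset κ), (((if τ ∈ T then A else Finset.univ).card : ℕ) : ℝ) ≤
      (if τ ∈ T then (1 / 64 : ℝ) else 1) * Fintype.card β := by
    intro τ _
    split_ifs with hτ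
    · rw [mul_comm]
      exact hA
    · rw [one_mul]
      rfl
  refine (Finset.prod_le_prod (fun τ _ => Nat.cast_nonneg _) h2).trans ?_
  rw [Finset.prod_mul_distrib, Finset.prod_const, Finset.card_univ, Fintype.card_fun, Nat.cast_pow]
  refine mul_le_mul_of_nonneg_right ?_ (by positivity)
  rw [Finset.prod_ite, Finset.prod_const, Finset.prod_const_one, mul_one]
  have h3 : (Finset.univ.filter (fun τ => τ ∈ T)) = T := by
    ext τ
    simp
  rw [h3]
  have h4 : (1 / 64 : ℝ) = (1 / 8) ^ 2 := by norm_num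
  rw [h4, ← pow_mul]
  exact pow_le_pow_of_le_one (by norm_num) (by norm_num) hT

open Classical in
/-- probability of being bad: Markov (`Dop_noise`) gives `≤ 1/64` per sample and point; union over `x`
(`2^n`) and `T` (`2^n`), `(1/64)^{|T|} ≤ 8^{-n}` -/
theorem bad_count (i l : ℕ) {M : ℝ} (hM : 1 ≤ M)
    (hl : ((2 : ℝ) ^ l - 1) * (4 ^ i * M) ≤ 2 ^ Fintype.card ι / (64 * 12288 ^ 2))
    (θ : (ι → Bool) → ℝ) (hE : ∑ x, dz (θ x) ^ 2 ≤ M) :
    ((Finset.univ.filter (fun Y : Fin (Fintype.card ι) → (Fin l → (ι → Bool)) =>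
        Bad i l Y θ)).card : ℝ) ≤
      (1 / 2) ^ Fintype.card ι *
        Fintype.card (Fin (Fintype.card ι) → (Fin l → (ι → Bool))) := by
  have _ := hM
  let A : (ι → Bool) → Finset (Fin l → (ι → Bool)) := fun x =>
    Finset.univ.filter (fun y : Fin l → (ι → Bool) =>
      1 / 12288 < |Dop l y (fun z => 2 ^ i * res θ z) x - 2 ^ i * res θ x|)
  have hsub : Finset.univ.filter (fun Y : Fin (Fintype.card ι) → (Fin l → (ι → Bool)) =>
      Bad i l Y θ) ⊆ ((Finset.univ : Finset (ι → Bool)) ×ˢ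
        (Finset.univ.filter (fun T : Finset (Fin (Fintype.card ι)) =>
          Fintype.card ι ≤ 2 * T.card))).biUnion (fun p => Finset.univ.filter
            (fun Y : Fin (Fintype.card ι) → (Fin l → (ι → Bool)) => ∀ τ ∈ p.2, Y τ ∈ A p.1)) := by
    intro Y hY
    obtain ⟨x, T, hT, h⟩ := (Finset.mem_filter.1 hY).2
    rw [Finset.mem_biUnion]
    refine ⟨(x, T), ?_, ?_⟩
    · rw [Finset.mem_product]
      exact ⟨Finset.mem_univ _, Finset.mem_filter.2 ⟨Finset.mem_univ _, hT⟩⟩
    · rw [Finset.mem_filter]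
      exact ⟨Finset.mem_univ _, fun τ hτ => Finset.mem_filter.2 ⟨Finset.mem_univ _, h τ hτ⟩⟩
  have h1 : ((Finset.univ.filter (fun Y : Fin (Fintype.card ι) → (Fin l → (ι → Bool)) =>
        Bad i l Y θ)).card : ℝ) ≤ ∑ p ∈ ((Finset.univ : Finset (ι → Bool)) ×ˢ
        (Finset.univ.filter (fun T : Finset (Fin (Fintype.card ι)) =>
          Fintype.card ι ≤ 2 * T.card))), ((Finset.univ.filter
            (fun Y : Fin (Fintype.card ι) → (Fin l → (ι → Bool)) =>
              ∀ τ ∈ p.2, Y τ ∈ A p.1)).card : ℝ) := by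
    rw [← Nat.cast_sum]
    exact_mod_cast (Finset.card_le_card hsub).trans Finset.card_biUnion_le
  refine h1.trans ?_
  have h2 : ∀ p ∈ ((Finset.univ : Finset (ι → Bool)) ×ˢ
        (Finset.univ.filter (fun T : Finset (Fin (Fintype.card ι)) =>
          Fintype.card ι ≤ 2 * T.card))), ((Finset.univ.filter
            (fun Y : Fin (Fintype.card ι) → (Fin l → (ι → Bool)) =>
              ∀ τ ∈ p.2, Y τ ∈ A p.1)).card : ℝ) ≤ (1 / 8) ^ Fintype.card ι *
        Fintype.card (Fin (Fintype.card ι) → (Fin l → (ι → Bool))) := by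
    rintro ⟨x, T⟩ hp
    rw [Finset.mem_product] at hp
    have hT := (Finset.mem_filter.1 hp.2).2
    have h3 := Single_pi (A x) T (Single_markov i l hl θ hE x) (by
      rw [Fintype.card_fin]
      exact hT)
    rw [Fintype.card_fin] at h3
    convert h3
  refine (Finset.sum_le_sum h2).trans ?_
  rw [Finset.sum_const, nsmul_eq_mul]
  have h4 : ((((Finset.univ : Finset (ι → Bool)) ×ˢ
        (Finset.univ.filter (fun T : Finset (Fin (Fintype.card ι)) =>
          Fintype.card ι ≤ 2 * T.card))).card : ℕ) : ℝ) ≤ 4 ^ Fintype.card ι := by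
    rw [Finset.card_product]
    have h5 : (Finset.univ.filter (fun T : Finset (Fin (Fintype.card ι)) =>
          Fintype.card ι ≤ 2 * T.card)).card ≤ 2 ^ Fintype.card ι := by
      refine (Finset.card_filter_le _ _).trans (le_of_eq ?_)
      rw [Finset.card_univ, Fintype.card_finset, Fintype.card_fin]
    have h6 : (Finset.univ : Finset (ι → Bool)).card = 2 ^ Fintype.card ι := by
      rw [Finset.card_univ, Fintype.card_fun, Fintype.card_bool]
    rw [h6]
    have h7 : 2 ^ Fintype.card ι * (Finset.univ.filter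
        (fun T : Finset (Fin (Fintype.card ι)) => Fintype.card ι ≤ 2 * T.card)).card ≤
        4 ^ Fintype.card ι := by
      calc _ ≤ 2 ^ Fintype.card ι * 2 ^ Fintype.card ι := Nat.mul_le_mul_left _ h5
        _ = 4 ^ Fintype.card ι := by rw [← mul_pow]; norm_num
    exact_mod_cast h7
  have h8 : (0 : ℝ) ≤ (1 / 8) ^ Fintype.card ι *
        Fintype.card (Fin (Fintype.card ι) → (Fin l → (ι → Bool))) := by positivity
  refine (mul_le_mul_of_nonneg_right h4 h8).trans (le_of_eq ?_)
  rw [← mul_assoc, ← mul_pow]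
  norm_num

/-- two functions which are not bad and have equal records for all samples are close mod 1 at scale
`i`: `2^i(θ-θ') ≡ 2^i(u-u')`, `D(2^i(θ-θ')) ≡ D(2^i(u-u'))`, noise `≤ 2/12288`, record `≤ 1/12288` -/
theorem close_of_records (m i l : ℕ) (Y : Fin (Fintype.card ι) → (Fin l → (ι → Bool)))
    (θ θ' : (ι → Bool) → ℝ) (h1 : ¬ Bad i l Y θ) (h2 : ¬ Bad i l Y θ')
    (hrec : ∀ τ, ∃ h : (ι → Bool) → ℤ, ∀ x,
      |Dop l (Y τ) (fun z => 2 ^ i * (θ z - θ' z)) x - h x| ≤ 1 / 12288) (x : ι → Bool) :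
    dz (2 ^ i * (θ x - θ' x)) ≤ 1 / 4096 := by
  classical
  have _ := m
  unfold Bad at h1 h2
  push Not at h1 h2
  -- a common good sample
  obtain ⟨τ, hτ1, hτ2⟩ : ∃ τ : Fin (Fintype.card ι),
      |Dop l (Y τ) (fun z => 2 ^ i * res θ z) x - 2 ^ i * res θ x| ≤ 1 / 12288 ∧
      |Dop l (Y τ) (fun z => 2 ^ i * res θ' z) x - 2 ^ i * res θ' x| ≤ 1 / 12288 := by
    by_contra hn
    push Not at hn
    set T1 : Finset (Fin (Fintype.card ι)) := Finset.univ.filter (fun τ =>
      1 / 12288 < |Dop l (Y τ) (fun z => 2 ^ i * res θ z) x - 2 ^ i * res θ x|) with hT1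
    set T2 : Finset (Fin (Fintype.card ι)) := Finset.univ.filter (fun τ =>
      1 / 12288 < |Dop l (Y τ) (fun z => 2 ^ i * res θ' z) x - 2 ^ i * res θ' x|) with hT2
    have c1 : 2 * T1.card < Fintype.card ι := by
      by_contra hc
      obtain ⟨τ, hτ, hτ'⟩ := h1 x T1 (not_lt.1 hc)
      have := (Finset.mem_filter.1 hτ).2
      linarith
    have c2 : 2 * T2.card < Fintype.card ι := by
      by_contra hc
      obtain ⟨τ, hτ, hτ'⟩ := h2 x T2 (not_lt.1 hc)
      have := (Finset.mem_filter.1 hτ).2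
      linarith
    have c3 : (Finset.univ : Finset (Fin (Fintype.card ι))) ⊆ T1 ∪ T2 := by
      intro τ _
      rw [Finset.mem_union]
      by_cases hτ : |Dop l (Y τ) (fun z => 2 ^ i * res θ z) x - 2 ^ i * res θ x| ≤ 1 / 12288
      · exact Or.inr (Finset.mem_filter.2 ⟨Finset.mem_univ _, hn τ hτ⟩)
      · exact Or.inl (Finset.mem_filter.2 ⟨Finset.mem_univ _, not_le.1 hτ⟩)
    have c4 := (Finset.card_le_card c3).trans (Finset.card_union_le _ _)
    rw [Finset.card_univ, Fintype.card_fin] at c4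
    omega
  obtain ⟨h, hh⟩ := hrec τ
  obtain ⟨h0, hh0⟩ := Dop_int l (Y τ) (fun z => 2 ^ i * (round (θ z) - round (θ' z)))
  have e1 : Dop l (Y τ) (fun z => 2 ^ i * (θ z - θ' z)) x =
      Dop l (Y τ) (fun z => 2 ^ i * res θ z) x + (-1) * Dop l (Y τ) (fun z => 2 ^ i * res θ' z) x +
        h0 x := by
    rw [← hh0 x, ← Dop_smul, ← Dop_add, ← Dop_add]
    congr 1
    funext z
    unfold res
    push_cast
    ring
  have e2 : |2 ^ i * (θ x - θ' x) -
      ((h x - h0 x + 2 ^ i * (round (θ x) - round (θ' x)) : ℤ) : ℝ)| ≤ 1 / 4096 := by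
    have e3 := hh x
    rw [e1] at e3
    have e4 : 2 ^ i * (θ x - θ' x) -
        ((h x - h0 x + 2 ^ i * (round (θ x) - round (θ' x)) : ℤ) : ℝ) =
        (Dop l (Y τ) (fun z => 2 ^ i * res θ z) x +
          (-1) * Dop l (Y τ) (fun z => 2 ^ i * res θ' z) x + h0 x - h x) -
        (Dop l (Y τ) (fun z => 2 ^ i * res θ z) x - 2 ^ i * res θ x) +
        (Dop l (Y τ) (fun z => 2 ^ i * res θ' z) x - 2 ^ i * res θ' x) := by
      unfold res
      push_cast
      ring
    rw [e4]
    refine (abs_add_le _ _).trans ?_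
    have e5 := abs_sub (Dop l (Y τ) (fun z => 2 ^ i * res θ z) x +
          (-1) * Dop l (Y τ) (fun z => 2 ^ i * res θ' z) x + h0 x - h x)
        (Dop l (Y τ) (fun z => 2 ^ i * res θ z) x - 2 ^ i * res θ x)
    linarith
  exact (round_le _ _).trans e2

/-- bound for the number of recorded coordinates at scale `i` -/
noncomputable def XX (n m i : ℕ) (M : ℝ) : ℝ := 2 ^ 37 * n * 4 ^ i * M * GG n m

/-- sum over all samples of a sum over the coordinates -/
private theorem Single_avg {κ β : Type} [Fintype κ] [DecidableEq κ] [Fintype β] [Nonempty β]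
    (f : β → ℝ) : (Fintype.card β : ℝ) * ∑ Y : κ → β, ∑ τ, f (Y τ) =
      Fintype.card κ * Fintype.card (κ → β) * ∑ y, f y := by
  classical
  rw [Finset.sum_comm]
  have h1 : ∀ τ : κ, (Fintype.card β : ℝ) * ∑ Y : κ → β, f (Y τ) =
      Fintype.card (κ → β) * ∑ y, f y := by
    intro τ
    have h2 : ∑ Y : κ → β, f (Y τ) = ∑ y, ∑ Y : κ → β, if Y τ = y then f y else 0 := by
      rw [Finset.sum_comm]
      refine Finset.sum_congr rfl fun Y _ => ?_
      rw [Finset.sum_ite_eq]
      simp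
    have h3 : ∀ y : β, ((Fintype.card β : ℕ) : ℝ) * ∑ Y : κ → β, (if Y τ = y then f y else 0) =
        Fintype.card (κ → β) * f y := by
      intro y
      rw [← Finset.sum_filter, Finset.sum_const, nsmul_eq_mul]
      have h4 : (Finset.univ.filter (fun Y : κ → β => Y τ = y)) =
          Fintype.piFinset (fun σ => if σ = τ then {y} else Finset.univ) := by
        ext Y
        rw [Finset.mem_filter, Fintype.mem_piFinset]
        constructor
        · rintro ⟨-, h⟩ σ
          split_ifs with hσ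
          · rw [hσ, h]
            exact Finset.mem_singleton_self _
          · exact Finset.mem_univ _
        · intro h
          refine ⟨Finset.mem_univ _, ?_⟩
          have := h τ
          rw [if_pos rfl] at this
          exact Finset.mem_singleton.1 this
      have h5 : Fintype.card β * (Finset.univ.filter (fun Y : κ → β => Y τ = y)).card =
          Fintype.card (κ → β) := by
        rw [h4, Fintype.card_piFinset, Fintype.card_fun,
          ← Finset.mul_prod_erase Finset.univ _ (Finset.mem_univ τ)]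
        have h6 : ∏ σ ∈ Finset.univ.erase τ,
            ((if σ = τ then ({y} : Finset β) else Finset.univ).card) =
            Fintype.card β ^ (Fintype.card κ - 1) := by
          have h7 : ∀ σ ∈ Finset.univ.erase τ,
              ((if σ = τ then ({y} : Finset β) else Finset.univ).card) = Fintype.card β := by
            intro σ hσ
            rw [if_neg (Finset.ne_of_mem_erase hσ), Finset.card_univ]
          rw [Finset.prod_congr rfl h7, Finset.prod_const, Finset.card_erase_of_mem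
            (Finset.mem_univ τ), Finset.card_univ]
        rw [h6, if_pos rfl, Finset.card_singleton, one_mul, ← pow_succ']
        congr 1
        have : 0 < Fintype.card κ := Fintype.card_pos_iff.2 ⟨τ⟩
        omega
      rw [← mul_assoc, ← Nat.cast_mul, h5]
    rw [h2, Finset.mul_sum, Finset.mul_sum]
    exact Finset.sum_congr rfl fun y _ => h3 y
  rw [Finset.mul_sum, Finset.sum_congr rfl fun τ _ => h1 τ, Finset.sum_const, Finset.card_univ,
    nsmul_eq_mul, mul_assoc]

/-- Single scale lemma.  Choose `Y` by averaging: the average number of bad elements of `P` is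
`≤ 2^{-n}|P|`, the average of `Σ_τ |Act (Y τ)|` is `≤ n · 2^{-l} · 2^n GG ≤ XX/4`; two Markov
inequalities with factor `4` (strict/non-strict: `P(> 4·mean) < 1/2` each). -/
theorem single_scale (m i : ℕ) {M : ℝ} (hM : 1 ≤ M) (hι : 8 ≤ Fintype.card ι)
    (P : Finset ((ι → Bool) → ℝ)) (hP : ∀ θ ∈ P, DegLe m θ ∧ ∑ x, dz (θ x) ^ 2 ≤ M) :
    ∃ (d : ℕ) (rec : ((ι → Bool) → ℝ) → (Fin d → Fin (KK (Fintype.card ι))))
      (B : Finset ((ι → Bool) → ℝ)), B ⊆ P ∧
      (d : ℝ) ≤ XX (Fintype.card ι) m i M ∧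
      (B.card : ℝ) * 2 ^ Fintype.card ι ≤ 4 * P.card ∧
      ∀ θ ∈ P, θ ∉ B → ∀ θ' ∈ P, θ' ∉ B → rec θ = rec θ' →
        ∀ x, dz (2 ^ i * (θ x - θ' x)) ≤ 1 / 4096 := by
  classical
  have hGG : 0 < GG (Fintype.card ι) m := by
    unfold GG
    positivity
  have hn0 : (0 : ℝ) < Fintype.card ι := by
    have : 0 < Fintype.card ι := by omega
    exact_mod_cast this
  have hXX : 0 < XX (Fintype.card ι) m i M := by
    unfold XX
    positivity
  rcases P.eq_empty_or_nonempty with hP0 | hP0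
  · subst hP0
    refine ⟨0, fun _ a => a.elim0, ∅, Finset.Subset.refl _, ?_, ?_, ?_⟩
    · rw [Nat.cast_zero]
      exact hXX.le
    · simp
    · intro θ hθ
      exact absurd hθ (Finset.notMem_empty _)
  obtain ⟨l, hl1, hl2⟩ := exists_l (Fintype.card ι) i hM
  have hcP : (0 : ℝ) < P.card := by exact_mod_cast hP0.card_pos
  set N : ℝ := ((Fintype.card (Fin (Fintype.card ι) → (Fin l → (ι → Bool))) : ℕ) : ℝ) with hN
  have hN0 : 0 < N := by
    rw [hN]
    exact_mod_cast Fintype.card_pos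
  have hβ0 : (0 : ℝ) < Fintype.card (Fin l → (ι → Bool)) := by exact_mod_cast Fintype.card_pos
  -- average dimension
  have hS1 : ∑ Y : Fin (Fintype.card ι) → (Fin l → (ι → Bool)), ∑ τ, ((Act m (Y τ)).card : ℝ) ≤
      N * XX (Fintype.card ι) m i M / 4 := by
    have h1 := Single_avg (κ := Fin (Fintype.card ι)) (β := Fin l → (ι → Bool))
      (fun y => ((Act m y).card : ℝ))
    rw [Fintype.card_fin, ← hN] at h1
    have h2 := sum_card_Act (ι := ι) m l
    have h3 := card_low_le (ι := ι) m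
    have h4 : ((low ι m).card : ℝ) / 2 ^ l ≤
        GG (Fintype.card ι) m * (128 * 12288 ^ 2 * (4 ^ i * M)) := by
      calc ((low ι m).card : ℝ) / 2 ^ l = ((low ι m).card : ℝ) * (1 / 2 ^ l) := by ring
        _ ≤ (2 ^ Fintype.card ι * GG (Fintype.card ι) m) *
            (128 * 12288 ^ 2 * (4 ^ i * M) / 2 ^ Fintype.card ι) := by gcongr
        _ = GG (Fintype.card ι) m * (128 * 12288 ^ 2 * (4 ^ i * M)) := by
            field_simp
    have h5 : (Fintype.card (Fin l → (ι → Bool)) : ℝ) *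
        ∑ Y : Fin (Fintype.card ι) → (Fin l → (ι → Bool)), ∑ τ, ((Act m (Y τ)).card : ℝ) ≤
        (Fintype.card (Fin l → (ι → Bool)) : ℝ) * (N * XX (Fintype.card ι) m i M / 4) := by
      rw [h1]
      calc (Fintype.card ι : ℝ) * N * ∑ y : Fin l → (ι → Bool), ((Act m y).card : ℝ)
          ≤ (Fintype.card ι : ℝ) * N * ((Fintype.card (Fin l → (ι → Bool)) : ℝ) *
            (GG (Fintype.card ι) m * (128 * 12288 ^ 2 * (4 ^ i * M)))) := by
            refine mul_le_mul_of_nonneg_left ?_ (by positivity)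
            exact h2.trans (mul_le_mul_of_nonneg_left h4 hβ0.le)
        _ = (Fintype.card (Fin l → (ι → Bool)) : ℝ) * (N * ((128 * 12288 ^ 2) *
            ((Fintype.card ι : ℝ) * 4 ^ i * M * GG (Fintype.card ι) m))) := by ring
        _ ≤ (Fintype.card (Fin l → (ι → Bool)) : ℝ) * (N * (2 ^ 35 *
            ((Fintype.card ι : ℝ) * 4 ^ i * M * GG (Fintype.card ι) m))) := by
            have h6 : (128 * 12288 ^ 2 : ℝ) ≤ 2 ^ 35 := by norm_num
            gcongr
        _ = (Fintype.card (Fin l → (ι → Bool)) : ℝ) * (N * XX (Fintype.card ι) m i M / 4) := by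
            unfold XX
            ring
    exact le_of_mul_le_mul_left h5 hβ0
  -- average number of bad elements
  have hS2 : (∑ Y : Fin (Fintype.card ι) → (Fin l → (ι → Bool)),
      ((P.filter (fun θ => Bad i l Y θ)).card : ℝ)) * 2 ^ Fintype.card ι ≤ P.card * N := by
    have h1 : ∑ Y : Fin (Fintype.card ι) → (Fin l → (ι → Bool)),
        ((P.filter (fun θ => Bad i l Y θ)).card : ℝ) =
        ∑ θ ∈ P, ((Finset.univ.filter
          (fun Y : Fin (Fintype.card ι) → (Fin l → (ι → Bool)) => Bad i l Y θ)).card : ℝ) := by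
      simp only [Finset.card_filter, Nat.cast_sum]
      exact Finset.sum_comm
    have h2 : ∑ θ ∈ P, ((Finset.univ.filter
          (fun Y : Fin (Fintype.card ι) → (Fin l → (ι → Bool)) => Bad i l Y θ)).card : ℝ) ≤
        ∑ θ ∈ P, (1 / 2 : ℝ) ^ Fintype.card ι * N := by
      refine Finset.sum_le_sum fun θ hθ => ?_
      have h3 := bad_count i l hM hl1 θ (hP θ hθ).2
      convert h3
    rw [h1]
    rw [Finset.sum_const, nsmul_eq_mul] at h2
    calc _ ≤ ((P.card : ℝ) * ((1 / 2 : ℝ) ^ Fintype.card ι * N)) * 2 ^ Fintype.card ι := by gcongr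
      _ = (P.card : ℝ) * N * ((1 / 2 : ℝ) ^ Fintype.card ι * 2 ^ Fintype.card ι) := by ring
      _ = (P.card : ℝ) * N := by
          rw [← mul_pow]
          norm_num
  -- a good sample
  obtain ⟨Y, hY1, hY2⟩ : ∃ Y : Fin (Fintype.card ι) → (Fin l → (ι → Bool)),
      ∑ τ, ((Act m (Y τ)).card : ℝ) ≤ XX (Fintype.card ι) m i M ∧
      ((P.filter (fun θ => Bad i l Y θ)).card : ℝ) * 2 ^ Fintype.card ι ≤ 4 * P.card := by
    by_contra hn
    push Not at hn
    have h1 : ∀ Y ∈ (Finset.univ : Finset (Fin (Fintype.card ι) → (Fin l → (ι → Bool)))),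
        4 * (P.card : ℝ) * XX (Fintype.card ι) m i M ≤
        4 * (P.card : ℝ) * ∑ τ, ((Act m (Y τ)).card : ℝ) + XX (Fintype.card ι) m i M *
          (((P.filter (fun θ => Bad i l Y θ)).card : ℝ) * 2 ^ Fintype.card ι) := by
      intro Y _
      have q1 : (0 : ℝ) ≤ ∑ τ, ((Act m (Y τ)).card : ℝ) :=
        Finset.sum_nonneg fun _ _ => Nat.cast_nonneg _
      have q2 : (0 : ℝ) ≤ ((P.filter (fun θ => Bad i l Y θ)).card : ℝ) * 2 ^ Fintype.card ι := by
        positivity
      by_cases hY : ∑ τ, ((Act m (Y τ)).card : ℝ) ≤ XX (Fintype.card ι) m i M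
      · have h2 := hn Y hY
        nlinarith
      · rw [not_le] at hY
        nlinarith
    have h2 := Finset.sum_le_sum h1
    rw [Finset.sum_const, Finset.card_univ, nsmul_eq_mul, ← hN, Finset.sum_add_distrib,
      ← Finset.mul_sum, ← Finset.mul_sum, ← Finset.sum_mul] at h2
    have h3 : 4 * (P.card : ℝ) *
        ∑ Y : Fin (Fintype.card ι) → (Fin l → (ι → Bool)), ∑ τ, ((Act m (Y τ)).card : ℝ) ≤
        4 * (P.card : ℝ) * (N * XX (Fintype.card ι) m i M / 4) :=
      mul_le_mul_of_nonneg_left hS1 (by positivity)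
    have h4 := mul_le_mul_of_nonneg_left hS2 hXX.le
    have h5 : 0 < N * (P.card : ℝ) * XX (Fintype.card ι) m i M := by positivity
    nlinarith
  -- the records
  choose rc hrc using fun τ => record_exists m (Y τ) (2 ^ i)
  let D : Type := Σ τ : Fin (Fintype.card ι), (Act m (Y τ))
  let e : D ≃ Fin (Fintype.card D) := Fintype.equivFin D
  refine ⟨Fintype.card D, fun θ a => rc (e.symm a).1 θ (e.symm a).2,
    P.filter (fun θ => Bad i l Y θ), Finset.filter_subset _ _, ?_, hY2, ?_⟩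
  · have h1 : Fintype.card D = ∑ τ, (Act m (Y τ)).card := by
      rw [Fintype.card_sigma]
      refine Finset.sum_congr rfl fun τ _ => ?_
      rw [Fintype.card_coe]
    rw [h1, Nat.cast_sum]
    exact hY1
  · intro θ hθ hθB θ' hθ' hθB' hr x
    have b1 : ¬ Bad i l Y θ := fun h => hθB (Finset.mem_filter.2 ⟨hθ, h⟩)
    have b2 : ¬ Bad i l Y θ' := fun h => hθB' (Finset.mem_filter.2 ⟨hθ', h⟩)
    refine close_of_records m i l Y θ θ' b1 b2 (fun τ => ?_) x
    refine hrc τ θ θ' (hP θ hθ).1 (hP θ' hθ').1 ?_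
    funext s
    have h1 : ∀ b : D, rc b.1 θ b.2 = rc b.1 θ' b.2 := by
      intro b
      obtain ⟨a, rfl⟩ := e.symm.surjective b
      exact congrFun hr a
    exact h1 ⟨τ, s⟩

end P047F
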